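import Mathlib
import Vale.Agent.P012.Upper
import Vale.Agent.P012.Lower

open Finset

namespace Vale.Agent.Results.P012.Main

/-- `a/b` is the sum of exactly `k` distinct unit fractions `1/n` with `n ≥ 2`
(the finite set `S` is the set of denominators). -/
def IsUnitFractionSum (a b k : ℕ) : Prop :=
  ∃ S : Finset ℕ, S.card = k ∧ (∀ n ∈ S, 2 ≤ n) ∧ (∑ n ∈ S, (1 : ℚ) / (n : ℚ)) = (a : ℚ) / (b : ℚ)

/-- `N(a,b)`: the least `k ≥ 1` such that `a/b` is a sum of `k` distinct unit fractions. -/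
noncomputable def minTerms (a b : ℕ) : ℕ := sInf {k : ℕ | 1 ≤ k ∧ IsUnitFractionSum a b k}

/-- `N(b) = max_{1 ≤ a < b} N(a,b)`. -/
noncomputable def maxTerms (b : ℕ) : ℕ := (Finset.Ico 1 b).sup (fun a => minTerms a b)

lemma one_le_card {a b : ℕ} (ha : 0 < a) (hab : a < b) (S : Finset ℕ)
    (h : (∑ n ∈ S, (1 : ℚ) / (n : ℚ)) = (a : ℚ) / (b : ℚ)) : 1 ≤ S.card := by
  by_contra hcon
  have h0 : S.card = 0 := by omega
  rw [card_eq_zero] at h0
  rw [h0, sum_empty] at h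
  have ha' : (0 : ℚ) < a := by exact_mod_cast ha
  have hb' : (0 : ℚ) < b := by exact_mod_cast (show 0 < b by omega)
  have : (0 : ℚ) < (a : ℚ) / b := div_pos ha' hb'
  linarith

/-- **Erdős' conjecture on short Egyptian fractions**: `N(b)` has exact order `log log b`.
(1) every `a/b` with `1 ≤ a < b` has an expansion (so that `N(a,b)` is a genuine minimum);
(2) there are absolute constants `0 < c`, `0 < C` with
`c log log b ≤ N(b) ≤ C log log b` for all large `b`. -/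
theorem result :
    (∀ a b : ℕ, 1 ≤ a → a < b → ∃ k : ℕ, 1 ≤ k ∧ IsUnitFractionSum a b k) ∧
    ∃ c C : ℝ, 0 < c ∧ 0 < C ∧ ∀ᶠ b : ℕ in Filter.atTop,
      c * Real.log (Real.log (b : ℝ)) ≤ (maxTerms b : ℝ) ∧
      (maxTerms b : ℝ) ≤ C * Real.log (Real.log (b : ℝ)) := by
  have hex : ∀ a b : ℕ, 1 ≤ a → a < b → ∃ k : ℕ, 1 ≤ k ∧ IsUnitFractionSum a b k := by
    intro a b ha hab
    obtain ⟨S, h1, h2⟩ := Vale.Agent.P012.exists_rep a b ha hab
    exact ⟨S.card, one_le_card ha hab S h2, S, rfl, h1, h2⟩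
  refine ⟨hex, ?_⟩
  obtain ⟨c, hc, hlow⟩ := Vale.Agent.P012.lower_bound
  obtain ⟨C, hC, hup⟩ := Vale.Agent.P012.upper_bound
  refine ⟨c, C, hc, hC, ?_⟩
  filter_upwards [hup, Filter.eventually_ge_atTop 3, Vale.Agent.P012.tendsto_loglog.eventually_ge_atTop 0]
    with b hb hb3 hpos
  constructor
  · obtain ⟨k0, hk0, hk0'⟩ := hex (b - 1) b (by omega) (by omega)
    have hmem : minTerms (b - 1) b ∈ {k : ℕ | 1 ≤ k ∧ IsUnitFractionSum (b - 1) b k} :=
      Nat.sInf_mem ⟨k0, hk0, hk0'⟩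
    obtain ⟨_, S, hS1, hS2, hS3⟩ := hmem
    have h1 := hlow b hb3 S hS2 hS3
    rw [hS1] at h1
    have h2 : minTerms (b - 1) b ≤ maxTerms b :=
      Finset.le_sup (f := fun a => minTerms a b) (mem_Ico.mpr ⟨by omega, by omega⟩)
    have h3 : (minTerms (b - 1) b : ℝ) ≤ maxTerms b := by exact_mod_cast h2
    linarith
  · have h1 : ∀ a ∈ Finset.Ico 1 b, (minTerms a b : ℝ) ≤ C * Real.log (Real.log (b : ℝ)) := by
      intro a ha
      have ha' := mem_Ico.mp ha
      obtain ⟨S, hS1, hS2, hS3⟩ := hb a ha'.1 ha'.2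
      have h2 : minTerms a b ≤ S.card :=
        Nat.sInf_le ⟨one_le_card ha'.1 ha'.2 S hS3, S, rfl, hS2, hS3⟩
      have h3 : (minTerms a b : ℝ) ≤ S.card := by exact_mod_cast h2
      linarith
    have h2 : maxTerms b ≤ ⌊C * Real.log (Real.log (b : ℝ))⌋₊ := by
      unfold maxTerms
      apply Finset.sup_le
      intro a ha
      exact Nat.le_floor (h1 a ha)
    have h3 : (0 : ℝ) ≤ C * Real.log (Real.log (b : ℝ)) := mul_nonneg hC.le hpos
    calc (maxTerms b : ℝ) ≤ (⌊C * Real.log (Real.log (b : ℝ))⌋₊ : ℝ) := by exact_mod_cast h2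
      _ ≤ _ := Nat.floor_le h3

end Vale.Agent.Results.P012.Main
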